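import Vale.Agent.P024.H644.Defs
import Mathlib.RingTheory.ZMod.UnitsCyclic

/-!
The layers of the extension which belongs to a character with values in the `p`-adic units.
-/

namespace Vale.Agent.P024.M3G

open scoped NumberField
open IsDedekindDomain NumberField Vale.Agent.P024 Vale.Agent.P024.TR

variable {F : Type*} [Field F] [NumberField F] {p : ℕ} [hp : Fact p.Prime]

theorem isOpen_redu (n : ℕ) : IsOpen {u : ℤ_[p]ˣ | redu n u = 1} := by
  have h1 : {u : ℤ_[p]ˣ | redu n u = 1} =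
      Units.val ⁻¹' (Metric.closedBall (1 : ℤ_[p]) ((p : ℝ) ^ (-n : ℤ))) := by
    ext u
    rw [Set.mem_ofPred_eq, Set.mem_preimage, Metric.mem_closedBall, dist_eq_norm,
      PadicInt.norm_le_pow_iff_mem_span_pow, ← PadicInt.ker_toZModPow, RingHom.mem_ker, map_sub,
      map_one, sub_eq_zero]
    constructor
    · intro h
      exact congrArg Units.val h
    · intro h
      exact Units.ext h
  rw [h1]
  refine (IsUltrametricDist.isOpen_closedBall (1 : ℤ_[p]) ?_).preimage Units.continuous_val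
  exact (zpow_pos (by exact_mod_cast hp.out.pos) _).ne'

/-- The reduction modulo `p ^ n` of the `(p-1)`-st power of a character. -/
noncomputable def layChar (ψ : (AlgebraicClosure F ≃ₐ[F] AlgebraicClosure F) →* ℤ_[p]ˣ) (n : ℕ) :
    (AlgebraicClosure F ≃ₐ[F] AlgebraicClosure F) →* (ZMod (p ^ n))ˣ :=
  (redu n).comp ((powMonoidHom (p - 1)).comp ψ)

omit [NumberField F] in
theorem layChar_apply (ψ : (AlgebraicClosure F ≃ₐ[F] AlgebraicClosure F) →* ℤ_[p]ˣ) (n : ℕ)
    (g : AlgebraicClosure F ≃ₐ[F] AlgebraicClosure F) :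
    layChar ψ n g = redu n (ψ g ^ (p - 1)) := rfl

omit [NumberField F] in
theorem isOpen_ker_layChar {ψ : (AlgebraicClosure F ≃ₐ[F] AlgebraicClosure F) →* ℤ_[p]ˣ}
    (hψ : Continuous ψ) (n : ℕ) :
    IsOpen ((layChar ψ n).ker : Set (AlgebraicClosure F ≃ₐ[F] AlgebraicClosure F)) := by
  have h1 : ((layChar ψ n).ker : Set (AlgebraicClosure F ≃ₐ[F] AlgebraicClosure F)) =
      (fun g => ψ g ^ (p - 1)) ⁻¹' {u : ℤ_[p]ˣ | redu n u = 1} := by
    ext g
    rfl
  rw [h1]
  exact (isOpen_redu n).preimage (hψ.pow _)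

omit [NumberField F] in
theorem layChar_pow {ψ : (AlgebraicClosure F ≃ₐ[F] AlgebraicClosure F) →* ℤ_[p]ˣ} (n : ℕ)
    (g : AlgebraicClosure F ≃ₐ[F] AlgebraicClosure F) : layChar ψ n g ^ (p ^ n) = 1 := by
  rw [layChar_apply, ← map_pow]
  exact redu_pow_eq_one (redu_one_pow (ψ g)) n

/-- The layers. -/
theorem layer (hp2 : p ≠ 2) {ψ : (AlgebraicClosure F ≃ₐ[F] AlgebraicClosure F) →* ℤ_[p]ˣ}
    (hψ : Continuous ψ) (n : ℕ) :
    ∃ L : IntermediateField F (AlgebraicClosure F), FiniteDimensional F L ∧ IsGalois F L ∧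
      (∃ m, Module.finrank F L = p ^ m) ∧
      (∃ σ : L ≃ₐ[F] L, ∀ τ : L ≃ₐ[F] L, τ ∈ Subgroup.zpowers σ) ∧
      Module.finrank F L = Nat.card (layChar ψ n).range ∧
      ∀ s : AlgebraicClosure F ≃ₐ[F] AlgebraicClosure F, (∀ x : L, s x = x) ↔
        layChar ψ n s = 1 := by
  have hopen := isOpen_ker_layChar hψ n
  have hchar : CharZero (AlgebraicClosure F) :=
    charZero_of_injective_algebraMap (algebraMap F (AlgebraicClosure F)).injective
  have halg : Algebra.IsAlgebraic ℚ (AlgebraicClosure F) := Algebra.IsAlgebraic.trans ℚ F _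
  set W := (layChar ψ n).ker with hW
  obtain ⟨hfd, hfix⟩ := finiteDimensional_fixedField W hopen
  set L := IntermediateField.fixedField W with hL
  have hnorm : W.Normal := MonoidHom.normal_ker _
  have hgal : IsGalois F L := by
    have h1 : L.fixingSubgroup.Normal := by rw [hfix]; exact hnorm
    exact (InfiniteGalois.normal_iff_isGalois L).1 h1
  have hs : ∀ s : AlgebraicClosure F ≃ₐ[F] AlgebraicClosure F, (∀ x : L, s x = x) ↔
      layChar ψ n s = 1 := by
    intro s
    have h1 : s ∈ L.fixingSubgroup ↔ s ∈ W := by rw [hfix]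
    rw [IntermediateField.mem_fixingSubgroup_iff] at h1
    rw [← MonoidHom.mem_ker, ← hW, ← h1]
    exact ⟨fun h x hx => h ⟨x, hx⟩, fun h x => h x x.2⟩
  -- the Galois group is the image of the character
  let r : (AlgebraicClosure F ≃ₐ[F] AlgebraicClosure F) →* (L ≃ₐ[F] L) :=
    AlgEquiv.restrictNormalHom L
  have hr : Function.Surjective r := AlgEquiv.restrictNormalHom_surjective (AlgebraicClosure F)
  have hker : r.ker = W := by
    ext s
    rw [MonoidHom.mem_ker, hW, MonoidHom.mem_ker, ← hs s]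
    constructor
    · intro h x
      have h1 := AlgEquiv.restrictNormal_commutes s L x
      have h2 : AlgEquiv.restrictNormal s L x = x := by
        have : AlgEquiv.restrictNormal s L = 1 := h
        rw [this]
        rfl
      rw [h2] at h1
      exact h1.symm
    · intro h
      apply AlgEquiv.ext
      intro x
      apply Subtype.ext
      have h1 := AlgEquiv.restrictNormal_commutes s L x
      exact h1.trans (h x)
  have e1 : (L ≃ₐ[F] L) ≃* (AlgebraicClosure F ≃ₐ[F] AlgebraicClosure F) ⧸ W :=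
    ((QuotientGroup.quotientKerEquivOfSurjective r hr).symm).trans
      (QuotientGroup.quotientMulEquivOfEq hker)
  have e2 : (L ≃ₐ[F] L) ≃* (layChar ψ n).range :=
    e1.trans (QuotientGroup.quotientKerEquivRange (layChar ψ n))
  have hcyc : IsCyclic (ZMod (p ^ n))ˣ := ZMod.isCyclic_units_of_prime_pow p hp.out hp2 n
  have hcard : Module.finrank F L = Nat.card (layChar ψ n).range := by
    rw [← IsGalois.card_aut_eq_finrank F L]
    exact Nat.card_congr e2.toEquiv
  have hNe : NeZero (p ^ n) := ⟨pow_ne_zero _ hp.out.ne_zero⟩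
  refine ⟨L, hfd, hgal, ?_, ?_, hcard, hs⟩
  · have hpg : IsPGroup p (layChar ψ n).range := by
      rintro ⟨_, g, rfl⟩
      exact ⟨n, Subtype.ext (layChar_pow n g)⟩
    rw [hcard]
    exact IsPGroup.iff_card.1 hpg
  · have hcyc2 : IsCyclic (layChar ψ n).range := inferInstance
    have hcyc3 : IsCyclic (L ≃ₐ[F] L) := isCyclic_of_surjective e2.symm e2.symm.surjective
    exact hcyc3.exists_generator


omit [NumberField F] in
theorem exists_large {ψ : (AlgebraicClosure F ≃ₐ[F] AlgebraicClosure F) →* ℤ_[p]ˣ}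
    (hinf : ¬ ∃ m : ℕ, 0 < m ∧ ∀ g, ψ g ^ m = 1) (M : ℕ) :
    ∃ n : ℕ, M < Nat.card (layChar ψ n).range := by
  by_contra hcon
  push Not at hcon
  have hp0 := hp.out.pos
  refine hinf ⟨(p - 1) * p ^ M, Nat.mul_pos (Nat.sub_pos_of_lt hp.out.one_lt) (pow_pos hp0 _), ?_⟩
  intro g
  refine redu_ext fun n => ?_
  have hNe : NeZero (p ^ n) := ⟨pow_ne_zero _ hp.out.ne_zero⟩
  have hpg : IsPGroup p (layChar ψ n).range := by
    rintro ⟨_, g, rfl⟩
    exact ⟨n, Subtype.ext (layChar_pow n g)⟩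
  obtain ⟨m, hm⟩ := IsPGroup.iff_card.1 hpg
  have hmM : m ≤ M := by
    have h1 := hcon n
    rw [hm] at h1
    exact (Nat.lt_pow_self hp.out.one_lt).le.trans h1
  have h2 : (⟨layChar ψ n g, g, rfl⟩ : (layChar ψ n).range) ^ (p ^ m) = 1 := by
    rw [← hm]
    exact pow_card_eq_one'
  have h3 : layChar ψ n g ^ (p ^ m) = 1 := congrArg Subtype.val h2
  rw [pow_mul, map_pow, map_one]
  obtain ⟨d, rfl⟩ := Nat.exists_eq_add_of_le hmM
  rw [pow_add, pow_mul]
  rw [layChar_apply] at h3
  rw [h3, one_pow]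

/-- A prime not above `p`. -/
theorem exists_killed {S : Set (HeightOneSpectrum (𝓞 F))} (hS : S.Infinite) :
    ∃ v ∈ S, (p : 𝓞 F) ∉ v.asIdeal := by
  have hfin : {v : HeightOneSpectrum (𝓞 F) | (p : 𝓞 F) ∈ v.asIdeal}.Finite := by
    have h0 : Ideal.span {(p : 𝓞 F)} ≠ ⊥ := by
      rw [Ne, Ideal.span_singleton_eq_bot]
      exact_mod_cast hp.out.ne_zero
    refine (Ideal.finite_factors h0).subset ?_
    intro v hv
    rw [Set.mem_ofPred_eq, Ideal.dvd_span_singleton]
    exact hv
  obtain ⟨v, hv⟩ := (hS.sdiff hfin).nonempty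
  exact ⟨v, hv.1, hv.2⟩

end Vale.Agent.P024.M3G
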