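import Vale.Agent.P024.M3.SpecG
import Vale.Agent.P024.M3.FinalG

namespace Vale.Agent.P024.M3End

open NumberField IsDedekindDomain Vale.Agent.P024.M3

/-- The `v`-units of `F` have bounded index modulo all powers of `p`. -/
def Clos (F : Type*) [Field F] [NumberField F] (p : ℕ) (v : HeightOneSpectrum (𝓞 F)) : Prop :=
  ∃ C : ℕ, ∀ k : ℕ, (UF v ⊔ VS F p k).relIndex (RR F p) ≠ 0 ∧
    (UF v ⊔ VS F p k).relIndex (RR F p) ≤ C

/-- The bound for the degree, from the blocks. -/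
theorem bound_of.{u} (h90 : PropH90.{u}) (hU : PropU.{u}) (hA : PropA.{u}) (hD : PropD.{u})
    (hTR : PropTR.{u}) (F : Type u) [Field F] [NumberField F] [IsTotallyReal F] (p : ℕ)
    (hp : p.Prime) (v : HeightOneSpectrum (𝓞 F)) (hv : (p : 𝓞 F) ∉ v.asIdeal)
    (hE : Clos F p v) : ∃ C : ℕ, ∀ (L : Type u) [Field L] [NumberField L] [Algebra F L]
      [IsGalois F L] (σ : L ≃ₐ[F] L), (∀ τ, τ ∈ Subgroup.zpowers σ) →
      Odd (Module.finrank F L) →
      (∀ w : HeightOneSpectrum (𝓞 L), (p : 𝓞 L) ∉ w.asIdeal → Unr F w) → Split L v →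
      Module.finrank F L ≤ C := by
  obtain ⟨C, hC⟩ := hE
  refine ⟨classNumber F * C, ?_⟩
  intro L _ _ _ _ σ hσ hodd hunr hsplit
  obtain ⟨hU0, hU1⟩ := hU F L σ hσ hodd v hsplit
  obtain ⟨hE0, k, hT0, hET⟩ := hD F L σ hσ p hp
  have hA1 := hA F L σ hσ p hp hunr v hv hE0
  obtain ⟨-, hTR1, hTR2, hTR3⟩ := hTR F L σ hσ
  obtain ⟨hC0, hC1⟩ := hC k
  rw [← h90 F L σ hσ (UU L v), hU1] at hA1
  set ι : Fˣ →* Lˣ := Units.map (algebraMap F L : F →* L) with hι
  have hinj : Function.Injective ι := Units.map_injective (algebraMap F L).injective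
  set d := dd σ with hd
  set n := nn F L with hn
  set A := RR L p ⊓ d.ker with hAdef
  set V := VS L p k ⊓ d.ker with hVdef
  set X := UU L v ⊓ d.ker with hXdef
  set Bn := (RR L p).map n ⊔ V with hBdef
  have hVA : V ≤ A := fun x hx => ⟨fun w hw => (hx.1 w hw).1, hx.2⟩
  have hXA : X ≤ A := fun x hx => ⟨UU_le_RR v hv hx.1, hx.2⟩
  have h1 : (X ⊔ V).relIndex A ≤ C ∧ (X ⊔ V).relIndex A ≠ 0 := by
    have h2 : X ⊔ V = (UF v ⊔ VS F p k).map ι := by
      rw [Subgroup.map_sup, hXdef, hVdef, hTR3 v, hTR2 p k hp]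
    rw [h2, hAdef, hTR1 p hp, Subgroup.relIndex_map_map_of_injective _ _ hinj]
    exact ⟨hC1, hC0⟩
  set D := (Bn ⊓ A) ⊔ X with hDdef
  have hDA : D ≤ A := sup_le inf_le_right hXA
  have hXVD : X ⊔ V ≤ D :=
    sup_le le_sup_right (le_trans (le_inf le_sup_right hVA) le_sup_left)
  have hT : Bn.relIndex A = (Bn ⊓ A).relIndex D * D.relIndex A := by
    rw [Subgroup.relIndex_mul_relIndex _ _ _ le_sup_left hDA, Subgroup.inf_relIndex_right]
  have h3 : D.relIndex A ≤ C :=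
    le_trans (Subgroup.relIndex_le_of_le_left hXVD h1.2) h1.1
  have h4 : (Bn ⊓ A).relIndex D ≤ h0 d n (UU L v) := by
    have h5 : (Bn ⊓ A).relIndex D = (Bn ⊓ A).relIndex X := by
      rw [hDdef, Subgroup.relIndex_sup_left]
    have h6 : (Bn ⊓ A).relIndex X = Bn.relIndex X := by
      rw [← Subgroup.inf_relIndex_right (Bn ⊓ A) X, inf_assoc, inf_eq_right.2 hXA,
        Subgroup.inf_relIndex_right]
    rw [h5, h6]
    refine Subgroup.relIndex_le_of_le_left ?_ hU0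
    exact le_trans (Subgroup.map_mono (UU_le_RR v hv)) le_sup_left
  have h7 : Module.finrank F L * h0 d n (UU L v) ≤ classNumber F * C * h0 d n (UU L v) :=
    calc Module.finrank F L * h0 d n (UU L v) ≤ classNumber F * e1 d (RR L p) := hA1
      _ ≤ classNumber F * ((Bn ⊓ A).relIndex D * D.relIndex A) := by
          rw [← hT]; exact Nat.mul_le_mul_left _ hET
      _ ≤ classNumber F * (h0 d n (UU L v) * C) :=
          Nat.mul_le_mul_left _ (Nat.mul_le_mul h4 h3)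
      _ = classNumber F * C * h0 d n (UU L v) := by ring
  exact Nat.le_of_mul_le_mul_right h7 (Nat.pos_of_ne_zero hU0)

/-- The theorem about `ℤ_p`-extensions, from the blocks. -/
theorem noSplit_of.{u} (h90 : PropH90.{u}) (hU : PropU.{u}) (hA : PropA.{u}) (hD : PropD.{u})
    (hTR : PropTR.{u}) (hG : PropG.{u}) (F : Type u) [Field F] [NumberField F] [IsTotallyReal F]
    (p : ℕ) [hp : Fact p.Prime] (hp2 : p ≠ 2)
    (hE : ∀ v : HeightOneSpectrum (𝓞 F), (p : 𝓞 F) ∉ v.asIdeal → Clos F p v) :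
    TR.NoSplit F p := by
  intro ψ hψ hinf
  by_contra hcon
  obtain ⟨v, hv, hvp⟩ : ∃ v : HeightOneSpectrum (𝓞 F), TR.Kills ψ v ∧ (p : 𝓞 F) ∉ v.asIdeal := by
    by_contra h
    push Not at h
    exact hinf ((finite_above F hp.out.ne_zero).subset fun v hv => h v hv)
  obtain ⟨C, hC⟩ := bound_of h90 hU hA hD hTR F p hp.out v hvp (hE v hvp)
  obtain ⟨L, _, _, _, _, σ, hσ, hodd, hunr, hs, hlt⟩ := hG F p hp2 ψ hψ hcon v hvp hv C
  exact absurd (hC L σ hσ hodd hunr hs) (not_le.2 hlt)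

end Vale.Agent.P024.M3End
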