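import Mathlib

/-!
The units and one further element have bounded index modulo all powers of `p`.
-/

namespace Vale.Agent.P024.M3E

open scoped NumberField
open NumberField Module

section order

variable {R : Type*} [CommRing R] {p : ℕ}

theorem one_add_pow_prime (hp : p.Prime) (hp2 : p ≠ 2) (a : ℕ) (ha : 1 ≤ a) (w : R) :
    ∃ s : R, (1 + (p : R) ^ a * w) ^ p = 1 + (p : R) ^ (a + 1) * (w + p * s) := by
  have hp3 : 3 ≤ p := by
    have := hp.two_le
    omega
  obtain ⟨s, hs⟩ : ∃ s : R, ∀ y : R, y = (p : R) ^ a * w →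
      (1 + y) ^ p = 1 + y ^ p + p * y * (1 + y * s) := by
    refine ⟨∑ k ∈ Finset.Ioo 0 (p - 1), ((p : R) ^ a * w) ^ (p - k - 2) *
      ((p.choose k / p : ℕ) : R), ?_⟩
    rintro y rfl
    set y := (p : R) ^ a * w
    rw [add_pow_prime_eq hp, one_pow]
    congr 1
    rw [mul_one]
    congr 1
    have h1 : Finset.Ioo 0 p = insert (p - 1) (Finset.Ioo 0 (p - 1)) := by
      ext k
      simp only [Finset.mem_Ioo, Finset.mem_insert]
      omega
    rw [h1, Finset.sum_insert (by simp), Finset.mul_sum]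
    congr 1
    · have h2 : p.choose (p - 1) / p = 1 := by
        rw [Nat.choose_symm_of_eq_add (by omega : p = (p - 1) + 1), Nat.choose_one_right]
        exact Nat.div_self hp.pos
      rw [h2]
      have h3 : p - (p - 1) - 1 = 0 := by omega
      rw [h3]
      simp
    · refine Finset.sum_congr rfl fun k hk => ?_
      rw [Finset.mem_Ioo] at hk
      have h4 : p - k - 1 = (p - k - 2) + 1 := by omega
      rw [h4, pow_succ, one_pow]
      ring
  have h := hs _ rfl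
  obtain ⟨c, hc⟩ : ∃ c, a * p = a + 2 + c := ⟨a * p - (a + 2), by
    have : a * 3 ≤ a * p := Nat.mul_le_mul_left a hp3
    omega⟩
  refine ⟨(p : R) ^ (a - 1) * w ^ 2 * s + (p : R) ^ c * w ^ p, ?_⟩
  rw [h, mul_pow, ← pow_mul, hc]
  obtain ⟨b, rfl⟩ : ∃ b, a = b + 1 := ⟨a - 1, by omega⟩
  simp only [Nat.add_sub_cancel]
  ring

theorem exact_pow [IsDomain R] (hp : p.Prime) (hp2 : p ≠ 2) {a : ℕ} (ha : 1 ≤ a) {w : R}
    (hw : ¬ (p : R) ∣ w) (n : ℕ) :
    ∃ w' : R, ¬ (p : R) ∣ w' ∧ (1 + (p : R) ^ a * w) ^ (p ^ n) = 1 + (p : R) ^ (a + n) * w' := by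
  induction n with
  | zero => exact ⟨w, hw, by simp⟩
  | succ n ih =>
    obtain ⟨w', hw', h⟩ := ih
    obtain ⟨s, hs⟩ := one_add_pow_prime hp hp2 (a + n) (by omega) w'
    refine ⟨w' + p * s, fun hd => hw' ?_, ?_⟩
    · have := dvd_sub hd (dvd_mul_right (p : R) s)
      simpa using this
    · rw [pow_succ, pow_mul, h, hs]
      rfl

/-- If `p ^ k` divides `(1 + p ^ a * w) ^ i - 1`, then `p ^ (k - a)` divides `i`. -/
theorem dvd_of_pow [IsDomain R] (hp : p.Prime) (hp2 : p ≠ 2) (hp0 : (p : R) ≠ 0) {a : ℕ}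
    (ha : 1 ≤ a) {w : R} (hw : ¬ (p : R) ∣ w) (k i : ℕ)
    (h : (p : R) ^ k ∣ (1 + (p : R) ^ a * w) ^ i - 1) : p ^ (k - a) ∣ i := by
  rcases Nat.eq_zero_or_pos i with rfl | hi
  · exact dvd_zero _
  obtain ⟨n, j, hj, rfl⟩ : ∃ n j, ¬ p ∣ j ∧ i = p ^ n * j :=
    Nat.exists_eq_pow_mul_and_not_dvd hi.ne' p hp.ne_one
  obtain ⟨w', hw', h'⟩ := exact_pow hp hp2 ha hw n
  refine Dvd.dvd.mul_right (pow_dvd_pow p ?_) j
  by_contra hlt
  push Not at hlt
  rw [pow_mul, h'] at h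
  have h2 := sq_dvd_add_pow_sub_sub ((p : R) ^ (a + n) * w') 1 j
  obtain ⟨c, hc⟩ := h2
  have h3 : (1 + (p : R) ^ (a + n) * w') ^ j - 1 =
      (p : R) ^ (a + n) * (w' * j + (p : R) ^ (a + n) * w' ^ 2 * c) := by
    rw [one_pow, one_pow] at hc
    linear_combination hc
  rw [h3] at h
  have h4 : (p : R) ^ (a + n) * p ∣ (p : R) ^ (a + n) *
      (w' * j + (p : R) ^ (a + n) * w' ^ 2 * c) := by
    rw [← pow_succ]
    exact (pow_dvd_pow _ (by omega)).trans h
  have h5 := (mul_dvd_mul_iff_left (pow_ne_zero _ hp0)).1 h4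
  have h6 : (p : R) ∣ (p : R) ^ (a + n) * w' ^ 2 * c := by
    refine Dvd.dvd.mul_right (Dvd.dvd.mul_right (dvd_pow_self _ (by omega)) _) _
  have h7 : (p : R) ∣ w' * j := (dvd_add_left h6).1 h5
  have h8 : IsCoprime (p : ℤ) (j : ℤ) :=
    Nat.isCoprime_iff_coprime.2 ((Nat.Prime.coprime_iff_not_dvd hp).2 hj)
  obtain ⟨u, v, huv⟩ := h8
  refine hw' ?_
  have h9 : w' = (p : R) * ((u : R) * w') + (v : R) * (w' * j) := by
    have : ((u * p + v * j : ℤ) : R) = 1 := by rw [huv]; simp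
    push_cast at this
    linear_combination (-w') * this
  rw [h9]
  exact dvd_add (dvd_mul_right _ _) (Dvd.dvd.mul_left h7 _)

/-- Orders modulo the powers of `p`. -/
theorem exists_order [IsDomain R] [IsNoetherianRing R] (hp : p.Prime) (hp2 : p ≠ 2)
    (hp0 : (p : R) ≠ 0) (hpu : ¬ IsUnit (p : R)) (y : R) {M : ℕ} (hM : (p : R) ∣ y ^ M - 1)
    (hy : y ^ M ≠ 1) : ∃ a : ℕ, ∀ k i : ℕ, (p : R) ^ k ∣ y ^ i - 1 → p ^ (k - a) ∣ i := by
  obtain ⟨a, w, hw, h⟩ := WfDvdMonoid.max_power_factor' (sub_ne_zero.2 hy) hpu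
  have ha : 1 ≤ a := by
    by_contra h0
    have : a = 0 := by omega
    subst this
    rw [pow_zero, one_mul] at h
    exact hw (h ▸ hM)
  refine ⟨a, fun k i hk => dvd_of_pow hp hp2 hp0 ha hw k i ?_⟩
  have h1 : 1 + (p : R) ^ a * w = y ^ M := by rw [← h]; ring
  rw [h1, ← pow_mul, mul_comm M i, pow_mul]
  have h2 : y ^ i - 1 ∣ (y ^ i) ^ M - 1 ^ M := sub_dvd_pow_sub_pow _ _ _
  rw [one_pow] at h2
  exact hk.trans h2

end order

section norm

/-- The norm respects congruences. -/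
theorem norm_congr {S : Type*} [CommRing S] [Module.Free ℤ S] [Module.Finite ℤ S] (m : ℤ)
    {x y : S} (h : (m : S) ∣ x - y) : m ∣ Algebra.norm ℤ x - Algebra.norm ℤ y := by
  classical
  obtain ⟨c, hc⟩ := h
  let b := Module.Free.chooseBasis ℤ S
  rw [Algebra.norm_eq_matrix_det b, Algebra.norm_eq_matrix_det b]
  have hx : x = y + (m : S) * c := by rw [← hc]; ring
  suffices h : ((Algebra.leftMulMatrix b x).det : ZMod m.natAbs) =
      ((Algebra.leftMulMatrix b y).det : ZMod m.natAbs) by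
    rw [← sub_eq_zero, ← Int.cast_sub, ZMod.intCast_zmod_eq_zero_iff_dvd] at h
    exact Int.natAbs_dvd.1 (by simpa using h)
  have hd : ∀ A : Matrix (Module.Free.ChooseBasisIndex ℤ S) (Module.Free.ChooseBasisIndex ℤ S) ℤ,
      ((A.det : ℤ) : ZMod m.natAbs) = (A.map (Int.castRingHom (ZMod m.natAbs))).det := by
    intro A
    exact RingHom.map_det (Int.castRingHom (ZMod m.natAbs)) A
  rw [hd, hd]
  congr 1
  ext i j
  rw [hx, map_add, map_mul]
  simp only [Matrix.map_apply, Matrix.add_apply]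
  rw [map_add]
  have h0 : Algebra.leftMulMatrix b ((m : S)) = (m : ℤ) • 1 := by
    have : (m : S) = m • (1 : S) := by simp
    rw [this, map_zsmul, map_one]
  rw [h0, Matrix.smul_mul, Matrix.one_mul, Matrix.smul_apply, smul_eq_mul, map_mul]
  have h1 : (Int.castRingHom (ZMod m.natAbs)) m = 0 := by
    rw [eq_intCast, ZMod.intCast_zmod_eq_zero_iff_dvd]
    exact Int.natAbs_dvd.2 dvd_rfl
  rw [h1, zero_mul, add_zero]

end norm

section index

theorem index_le_of_inj {G : Type*} [Group G] [Finite G] (H : Subgroup G) {ι : Type*} [Finite ι]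
    [Nonempty ι] (f : ι → G) (hf : Function.Injective f) (hfH : ∀ i, f i ∈ H) {c : ℕ}
    (hG : Nat.card G ≤ c * Nat.card ι) : H.index ≤ c := by
  have h1 : Nat.card ι ≤ Nat.card H :=
    Nat.card_le_card_of_injective (fun i => (⟨f i, hfH i⟩ : H)) fun i j hij =>
      hf (Subtype.ext_iff.1 hij)
  have h2 := H.index_mul_card
  have h3 : 0 < Nat.card ι := Nat.card_pos
  have h4 : H.index * Nat.card ι ≤ c * Nat.card ι :=
    (Nat.mul_le_mul_left _ h1).trans (h2.le.trans hG)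
  exact Nat.le_of_mul_le_mul_right h4 h3

theorem eq_of_pow_congr {p k D : ℕ} {t : ℤ} (ht : IsCoprime (p : ℤ) t)
    (h : ∀ i : ℕ, (p : ℤ) ^ k ∣ t ^ i - 1 → D ∣ i) {i j : ℕ} (hi : i < D) (hj : j < D)
    (hij : (p : ℤ) ^ k ∣ t ^ i - t ^ j) : i = j := by
  have key : ∀ i j : ℕ, i ≤ j → j < D → (p : ℤ) ^ k ∣ t ^ i - t ^ j → i = j := by
    intro i j hle hj hij
    obtain ⟨d, rfl⟩ := Nat.exists_eq_add_of_le hle
    have h1 : t ^ i - t ^ (i + d) = -(t ^ i * (t ^ d - 1)) := by ring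
    rw [h1, dvd_neg] at hij
    have h2 : (p : ℤ) ^ k ∣ t ^ d - 1 := (ht.pow).dvd_of_dvd_mul_left hij
    have h3 := h d h2
    rcases Nat.eq_zero_or_pos d with rfl | hd
    · rfl
    · have := Nat.le_of_dvd hd h3
      omega
  rcases le_total i j with hle | hle
  · exact key i j hle hj hij
  · exact (key j i hle hi (by rw [← dvd_neg, neg_sub]; exact hij)).symm

theorem eq_of_pow_eq {G : Type*} [Group G] {g : G} {D : ℕ} (h : ∀ i : ℕ, g ^ i = 1 → D ∣ i)
    {i j : ℕ} (hi : i < D) (hj : j < D) (hij : g ^ i = g ^ j) : i = j := by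
  have key : ∀ i j : ℕ, i ≤ j → j < D → g ^ i = g ^ j → i = j := by
    intro i j hle hj hij
    obtain ⟨d, rfl⟩ := Nat.exists_eq_add_of_le hle
    rw [pow_add] at hij
    have h1 : g ^ d = 1 := by
      have := mul_left_cancel ((mul_one (g ^ i)).trans hij)
      exact this.symm
    have h3 := h d h1
    rcases Nat.eq_zero_or_pos d with rfl | hd
    · rfl
    · have := Nat.le_of_dvd hd h3
      omega
  rcases le_total i j with hle | hle
  · exact key i j hle hj hij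
  · exact (key j i hle hi hij.symm).symm

variable {F : Type*} [Field F] [NumberField F]

theorem card_quot (p k : ℕ) [NeZero p] :
    Nat.card (𝓞 F ⧸ Ideal.span {(p : 𝓞 F) ^ k}) = p ^ (k * finrank ℚ F) := by
  have h1 : Nat.card (𝓞 F ⧸ Ideal.span {(p : 𝓞 F) ^ k}) =
      Ideal.absNorm (Ideal.span {(p : 𝓞 F) ^ k}) := (Ideal.absNorm_apply _).symm
  rw [h1, Ideal.absNorm_span_singleton]
  have h2 : ((p : 𝓞 F) ^ k) = algebraMap ℤ (𝓞 F) ((p : ℤ) ^ k) := by simp
  rw [h2, Algebra.norm_algebraMap, RingOfIntegers.rank, Int.natAbs_pow, Int.natAbs_pow,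
    Int.natAbs_natCast, ← pow_mul]

/-- A totally real field of degree two has a unit of infinite order. -/
theorem exists_unit_infinite [IsTotallyReal F] (hF : finrank ℚ F = 2) :
    ∃ ε : (𝓞 F)ˣ, ∀ i : ℕ, 0 < i → ε ^ i ≠ 1 := by
  classical
  have h1 : 1 < Fintype.card (InfinitePlace F) := by
    rw [InfinitePlace.card_eq_nrRealPlaces_add_nrComplexPlaces,
      IsTotallyReal.nrComplexPlaces_eq_zero, ← IsTotallyReal.finrank, hF]
    norm_num
  obtain ⟨w₁, w₂, hw⟩ := Fintype.one_lt_card_iff.1 h1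
  obtain ⟨u, hu⟩ := Units.dirichletUnitTheorem.exists_unit F w₁
  refine ⟨u, fun i hi h => ?_⟩
  have h2 := hu w₂ hw.symm
  have h3 : w₂ ((u : 𝓞 F) : F) ^ i = 1 := by
    rw [← map_pow]
    have : (((u : 𝓞 F) : F)) ^ i = (((u ^ i : (𝓞 F)ˣ) : 𝓞 F) : F) := by
      push_cast
      rfl
    rw [this, h]
    simp
  have h4 : w₂ ((u : 𝓞 F) : F) = 1 := by
    refine (pow_eq_one_iff_of_nonneg (by positivity) hi.ne').1 h3
  rw [h4, Real.log_one] at h2
  exact lt_irrefl _ h2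

end index

end Vale.Agent.P024.M3E
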