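import Vale.Agent.P024.M3T.Spec
import Vale.Agent.P024.M3.FinalG
import Vale.Agent.P024.H114.LayG
import Vale.Agent.P024.H422.TR

/-!
The bound for the degree, with a finite set of split primes.
-/

namespace Vale.Agent.P024.M3T

open NumberField IsDedekindDomain Vale.Agent.P024.M3

theorem UUT_le_RR {F L : Type*} [Field F] [NumberField F] [Field L] [NumberField L] [Algebra F L]
    (T : Set (HeightOneSpectrum (𝓞 F))) {p : ℕ} (hT : ∀ v ∈ T, (p : 𝓞 F) ∉ v.asIdeal) :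
    UUT L T ≤ RR L p := by
  intro x hx w hw
  refine hx w fun v hv h => hT v hv ?_
  rw [← h, Ideal.mem_comap, map_natCast]
  exact hw

/-- The bound for the degree, from the blocks. -/
theorem bound_of.{u} (h90 : PropH90.{u}) (hU : PropUT.{u}) (hA : PropAT.{u}) (hD : PropD.{u})
    (hTR : PropTR.{u}) (hTRT : PropTRT.{u}) (F : Type u) [Field F] [NumberField F] (p : ℕ)
    (hp : p.Prime) (T : Set (HeightOneSpectrum (𝓞 F))) (hTf : T.Finite)
    (hT : ∀ v ∈ T, (p : 𝓞 F) ∉ v.asIdeal) (hE : ClosT F p T) :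
    ∃ C : ℕ, ∀ (L : Type u) [Field L] [NumberField L] [Algebra F L]
      [IsGalois F L] (σ : L ≃ₐ[F] L), (∀ τ, τ ∈ Subgroup.zpowers σ) →
      Odd (Module.finrank F L) →
      (∀ w : HeightOneSpectrum (𝓞 L), (p : 𝓞 L) ∉ w.asIdeal → Unr F w) →
      (∀ v ∈ T, Split L v) → Module.finrank F L ≤ C := by
  obtain ⟨C, hC⟩ := hE
  refine ⟨classNumber F * C, ?_⟩
  intro L _ _ _ _ σ hσ hodd hunr hsplit
  obtain ⟨hU0, hU1⟩ := hU F L σ hσ hodd T hTf hsplit
  obtain ⟨hE0, k, hT0, hET⟩ := hD F L σ hσ p hp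
  have hA1 := hA F L σ hσ p hp hunr T hTf hT hE0
  obtain ⟨-, hTR1, hTR2, -⟩ := hTR F L σ hσ
  have hTR3 := hTRT F L σ hσ T
  obtain ⟨hC0, hC1⟩ := hC k
  rw [← h90 F L σ hσ (UUT L T), hU1] at hA1
  set ι : Fˣ →* Lˣ := Units.map (algebraMap F L : F →* L) with hι
  have hinj : Function.Injective ι := Units.map_injective (algebraMap F L).injective
  set d := dd σ with hd
  set n := nn F L with hn
  set A := RR L p ⊓ d.ker with hAdef
  set V := VS L p k ⊓ d.ker with hVdef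
  set X := UUT L T ⊓ d.ker with hXdef
  set Bn := (RR L p).map n ⊔ V with hBdef
  have hVA : V ≤ A := fun x hx => ⟨fun w hw => (hx.1 w hw).1, hx.2⟩
  have hXA : X ≤ A := fun x hx => ⟨UUT_le_RR T hT hx.1, hx.2⟩
  have h1 : (X ⊔ V).relIndex A ≤ C ∧ (X ⊔ V).relIndex A ≠ 0 := by
    have h2 : X ⊔ V = (UFT T ⊔ VS F p k).map ι := by
      rw [Subgroup.map_sup, hTR3, hVdef, hTR2 p k hp]
    rw [h2, hAdef, hTR1 p hp, Subgroup.relIndex_map_map_of_injective _ _ hinj]
    exact ⟨hC1, hC0⟩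
  set D := (Bn ⊓ A) ⊔ X with hDdef
  have hDA : D ≤ A := sup_le inf_le_right hXA
  have hXVD : X ⊔ V ≤ D :=
    sup_le le_sup_right (le_trans (le_inf le_sup_right hVA) le_sup_left)
  have hT' : Bn.relIndex A = (Bn ⊓ A).relIndex D * D.relIndex A := by
    rw [Subgroup.relIndex_mul_relIndex _ _ _ le_sup_left hDA, Subgroup.inf_relIndex_right]
  have h3 : D.relIndex A ≤ C :=
    le_trans (Subgroup.relIndex_le_of_le_left hXVD h1.2) h1.1
  have h4 : (Bn ⊓ A).relIndex D ≤ h0 d n (UUT L T) := by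
    have h5 : (Bn ⊓ A).relIndex D = (Bn ⊓ A).relIndex X := by
      rw [hDdef, Subgroup.relIndex_sup_left]
    have h6 : (Bn ⊓ A).relIndex X = Bn.relIndex X := by
      rw [← Subgroup.inf_relIndex_right (Bn ⊓ A) X, inf_assoc, inf_eq_right.2 hXA,
        Subgroup.inf_relIndex_right]
    rw [h5, h6]
    refine Subgroup.relIndex_le_of_le_left ?_ hU0
    exact le_trans (Subgroup.map_mono (UUT_le_RR T hT)) le_sup_left
  have h7 : Module.finrank F L * h0 d n (UUT L T) ≤ classNumber F * C * h0 d n (UUT L T) :=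
    calc Module.finrank F L * h0 d n (UUT L T) ≤ classNumber F * e1 d (RR L p) := hA1
      _ ≤ classNumber F * ((Bn ⊓ A).relIndex D * D.relIndex A) := by
          rw [← hT']; exact Nat.mul_le_mul_left _ hET
      _ ≤ classNumber F * (h0 d n (UUT L T) * C) :=
          Nat.mul_le_mul_left _ (Nat.mul_le_mul h4 h3)
      _ = classNumber F * C * h0 d n (UUT L T) := by ring
  exact Nat.le_of_mul_le_mul_right h7 (Nat.pos_of_ne_zero hU0)

/-- The Galois side. -/
theorem propGT.{u} : PropGT.{u} := by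
  intro F _ _ p hp hp2 ψ hψ hinf T hpT hkill B
  have hchar : CharZero (AlgebraicClosure F) :=
    charZero_of_injective_algebraMap (algebraMap F (AlgebraicClosure F)).injective
  have halg : Algebra.IsAlgebraic ℚ (AlgebraicClosure F) := Algebra.IsAlgebraic.trans ℚ F _
  obtain ⟨n, hn⟩ := M3G.exists_large hinf B
  obtain ⟨L, hfd, hgal, ⟨m, hm⟩, ⟨σ, hσ⟩, hcard, hL⟩ := M3G.layer hp2 hψ n
  have hNF : NumberField L := NumberField.of_module_finite F L
  have hL1 : ∀ s : AlgebraicClosure F ≃ₐ[F] AlgebraicClosure F, ψ s ^ (p - 1) = 1 →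
      ∀ x : L, s x = x := by
    intro s hs
    rw [hL, M3G.layChar_apply, hs, map_one]
  refine ⟨L, inferInstance, hNF, inferInstance, hgal, σ, hσ, ?_, ?_, ?_, ?_⟩
  · rw [hm]
    exact (hp.out.odd_of_ne_two hp2).pow
  · intro w hpw
    have hne : w.asIdeal.under (𝓞 F) ≠ ⊥ := Ideal.under_ne_bot _ w.ne_bot
    let v' : HeightOneSpectrum (𝓞 F) := ⟨w.asIdeal.under (𝓞 F), inferInstance, hne⟩
    have hlies : w.asIdeal.LiesOver v'.asIdeal := ⟨rfl⟩
    obtain ⟨x, hx⟩ := v'.valuation_exists_uniformizer F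
    refine ⟨x, ?_⟩
    rw [H114.Lay.unramified hp2 ψ hψ L hL1 v' w hpw x, hx]
  · intro v hv w hw τ hτ
    have hlies : w.asIdeal.LiesOver v.asIdeal := ⟨hw.symm⟩
    refine H114.Lay.split ψ L (fun s hs => hL1 s (by rw [hs, one_pow])) v (hkill v hv) w τ ?_
    intro x
    rw [← w.valuation_lt_one_iff_mem (K := L), ← w.valuation_lt_one_iff_mem (K := L)]
    have h1 : ((τ • x : 𝓞 L) : L) = τ (x : L) := rfl
    rw [← hτ]
    exact Iff.rfl
  · rw [hcard]
    exact hn

/-- The theorem about `ℤ_p`-extensions with infinitely many totally split primes in a set `V`,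
from the blocks: it is enough that the `T`-units have bounded index modulo all powers of `p` for a
finite subset `T` of `V`. -/
theorem finite_of.{u} (h90 : PropH90.{u}) (hU : PropUT.{u}) (hA : PropAT.{u}) (hD : PropD.{u})
    (hTR : PropTR.{u}) (hTRT : PropTRT.{u}) (F : Type u) [Field F] [NumberField F] (p : ℕ)
    [hp : Fact p.Prime] (hp2 : p ≠ 2)
    (ψ : (AlgebraicClosure F ≃ₐ[F] AlgebraicClosure F) →* ℤ_[p]ˣ) (hψ : Continuous ψ)
    (T : Set (HeightOneSpectrum (𝓞 F))) (hTf : T.Finite)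
    (hT : ∀ v ∈ T, (p : 𝓞 F) ∉ v.asIdeal) (hkill : ∀ v ∈ T, TR.Kills ψ v) (hE : ClosT F p T) :
    ∃ m : ℕ, 0 < m ∧ ∀ g, ψ g ^ m = 1 := by
  by_contra hcon
  obtain ⟨C, hC⟩ := bound_of h90 hU hA hD hTR hTRT F p hp.out T hTf hT hE
  obtain ⟨L, _, _, _, _, σ, hσ, hodd, hunr, hs, hlt⟩ :=
    propGT F p hp2 ψ hψ hcon T hT hkill C
  exact absurd (hC L σ hσ hodd hunr hs) (not_le.2 hlt)

end Vale.Agent.P024.M3T
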